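import Vale.Agent.P280.N2.Defs
import Vale.Agent.P280.H495.U2
import Vale.Agent.P280.H900.Mon
import Vale.Agent.P280.N.A01
import Vale.Agent.P280.N.A04
import Vale.Agent.P280.N.A19
import Vale.Agent.P280.N.B02

/-! P280, stage 2: the field `X₀ w₀` (block (c)). -/

open DirectSum Vale.Agent.P280.T Vale.Agent.P280.H127 Vale.Agent.P280.N Vale.Agent.P280.N.H989
open Vale.Agent.P280.H155 Vale.Agent.P280.H495 Vale.Agent.P280.H900

namespace Vale.Agent.P280.N2.H760

variable {r : ℕ} {R : Type} [CommRing R] [IsDomain R] [Algebra ℂ R]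
  {𝒜 : ℕ × (Fin r → ℤ) → Submodule ℂ R} [GradedAlgebra 𝒜]

/-- The other end of the curve of the only negative weight is the source. -/
theorem pos_end (H : Hyp 𝒜) {c : (Fin r → ℤ) →+ ℤ} {y y' : FP 𝒜} {b : Fin r → ℤ}
    (hcb : 0 < c b) (hoth : ∀ ψ, y.Pi ψ → ψ ≠ -b → 0 < c ψ) {n : ℕ} {φ : R →ₐ[ℂ] Polynomial ℂ}
    (hφ : Curve y y' (-b) n φ) : Pos c y' := by
  intro μ hμ
  by_contra hlt
  push Not at hlt
  have hyb : y'.Pi b := by
    have h1 := hφ.ya'
    rwa [neg_neg] at h1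
  have hmulne : ∀ k : ℤ, μ ≠ k • b := by
    intro k hk
    have hk0 : k ≠ 0 := by
      rintro rfl
      rw [zero_smul] at hk
      rw [hk, map_zero] at hlt
      exact lt_irrefl _ hlt
    have h1 := H.ind y'.q y'.ν μ b y'.nv y'.fix hμ hyb ⟨1, k, one_ne_zero, hk0, by
      rw [one_smul, hk]⟩
    rw [h1] at hlt
    omega
  obtain ⟨k, hk⟩ := curve_wt H hφ (μ := μ) (fun k hk => hmulne (-k) (by rw [hk, smul_neg, neg_smul])) hμ
  by_cases h1 : μ + (k : ℤ) • (-b) = -b
  · refine hmulne (k - 1) ?_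
    rw [sub_smul, one_smul]
    rw [eq_sub_of_add_eq h1, smul_neg]
    abel
  · have h2 := hoth _ hk h1
    rw [map_add, map_zsmul, map_neg, smul_eq_mul] at h2
    have h3 : (0 : ℤ) ≤ k := Int.natCast_nonneg k
    nlinarith


section
variable {N : ℤ} {n : ℕ} {f : Fin (n + 1) → Fin r → ℤ}
  {β : Fin (n + 1) → Fin (n + 1) → ((Fin r → ℤ) →+ ℤ)} {E F : Fin (n + 1) → Fin (n + 1) → VF R}

omit [GradedAlgebra 𝒜] in
theorem zero_ne_one' (hA : AC 𝒜 N n f β E F) : (0 : Fin (n + 1)) ≠ 1 := by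
  have h2 := hA.n2
  intro h
  have h3 := congrArg Fin.val h
  have h4 : ((1 : Fin (n + 1)) : ℕ) = 1 := by
    rw [Fin.val_one', Nat.mod_eq_of_lt (by omega)]
  rw [h4, Fin.val_zero] at h3
  omega

omit [GradedAlgebra 𝒜] in
theorem one_ne_last (hA : AC 𝒜 N n f β E F) : (1 : Fin (n + 1)) ≠ Fin.last n := by
  have h2 := hA.n2
  intro h
  have h3 := congrArg Fin.val h
  have h4 : ((1 : Fin (n + 1)) : ℕ) = 1 := by
    rw [Fin.val_one', Nat.mod_eq_of_lt (by omega)]
  rw [h4, Fin.val_last] at h3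
  omega

omit [GradedAlgebra 𝒜] in
theorem zero_ne_last (hA : AC 𝒜 N n f β E F) : (0 : Fin (n + 1)) ≠ Fin.last n := by
  have h2 := hA.n2
  intro h
  have h3 := congrArg Fin.val h
  rw [Fin.val_last, Fin.val_zero] at h3
  omega

omit [GradedAlgebra 𝒜] in
/-- The class of `f 0 - f L` modulo `f 0 - f 1`. -/
theorem class_top (hA : AC 𝒜 N n f β E F) {μ : Fin r → ℤ} (hμ : Wt 𝒜 μ)
    (h : (β 0 (Fin.last n) + β 1 (Fin.last n)) μ = 3 * N) :
    μ = f 0 - f (Fin.last n) ∨ μ = f 1 - f (Fin.last n) := by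
  have hN := hA.N0
  have h01 := zero_ne_one' hA
  have h1L := one_ne_last hA
  have h0L := zero_ne_last hA
  rw [AddMonoidHom.add_apply] at h
  rcases hA.S μ hμ with h1 | ⟨i, j, hij, rfl⟩ | ⟨i, rfl | rfl⟩ | ⟨-, i, j, hij, rfl⟩
  · rw [h1 _ _ h0L, h1 _ _ h1L] at h
    omega
  · rw [map_sub, map_sub, hA.be _ _ _ h0L, hA.be _ _ _ h1L, hA.be _ _ _ h0L, hA.be _ _ _ h1L] at h
    by_cases hi0 : i = 0
    · subst hi0
      by_cases hj : j = Fin.last n
      · rw [hj]; exact Or.inl rfl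
      · exfalso
        rw [if_pos rfl, if_neg h0L, if_neg h01, if_neg (Ne.symm hij), if_neg hj] at h
        split_ifs at h <;> omega
    · by_cases hi1 : i = 1
      · subst hi1
        by_cases hj : j = Fin.last n
        · rw [hj]; exact Or.inr rfl
        · exfalso
          rw [if_neg hi0, if_neg h1L, if_pos rfl, if_neg hj, if_neg (Ne.symm hij)] at h
          split_ifs at h <;> omega
      · exfalso
        rw [if_neg hi0, if_neg hi1] at h
        split_ifs at h <;> omega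
  · exfalso
    rw [hA.be _ _ _ h0L, hA.be _ _ _ h1L] at h
    split_ifs at h <;> omega
  · exfalso
    rw [map_neg, map_neg, hA.be _ _ _ h0L, hA.be _ _ _ h1L] at h
    split_ifs at h <;> omega
  · exfalso
    rw [map_add, map_add, hA.be _ _ _ h0L, hA.be _ _ _ h1L, hA.be _ _ _ h0L,
      hA.be _ _ _ h1L] at h
    split_ifs at h <;> omega

/-- Block (c): the field `X₀ w₀`. -/
theorem fieldC_of (H : Hyp 𝒜) (hA : AC 𝒜 N n f β E F) {c : (Fin r → ℤ) →+ ℤ}
    (hc : Ch2 𝒜 n f c)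
    (hlow : ∀ {lam : Fin r → ℤ}, lam ≠ 0 → ∀ {v : VF R}, HV 𝒜 lam v →
      (∀ y0 : FP 𝒜, Pos c y0 → RgV y0.q v) →
      ¬ Glob v → ∃ (y : FP 𝒜) (b : Fin r → ℤ), y.Pi (-b) ∧ 0 < c b ∧
        (∀ ψ, y.Pi ψ → ψ ≠ -b → 0 < c ψ) ∧ ¬ RgV y.q v ∧
        ∀ d z, Crd y (-b) d z → ∃ k : ℕ, RgV y.q ((iK z) ^ k • v))
    (hrel : ∀ {y : FP 𝒜} {b : Fin r → ℤ}, y.Pi (-b) → 0 < c b →
      (∀ ψ, y.Pi ψ → ψ ≠ -b → 0 < c ψ) → ∀ {l : ℕ} {psi : Fin r → ℤ} {M : List (Fin r → ℤ)},
      1 ≤ l → (psi = 0 ∨ y.Pi psi) → (∀ ω ∈ M, y.Pi ω ∧ ω ≠ -b) →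
      psi = -f (Fin.last n) + l • b + M.sum →
      l = 1 ∧ ((b = f 1 ∧ M = [] ∧ psi = f 1 - f (Fin.last n)) ∨
        (b = f 1 ∧ M = [f 0 - f 1] ∧ psi = f 0 - f (Fin.last n)) ∨
        (b = f 0 - f 1 ∧ M = [f 1] ∧ psi = f 0 - f (Fin.last n))))
    {p q : FP 𝒜} (hp : Pos c p) (h0 : p.Pi (f 0 - f (Fin.last n))) (h1 : ¬ p.Pi (f 1))
    (hno : ¬ p.Pi (f 1 - f (Fin.last n))) {m : ℕ} {φ : R →ₐ[ℂ] Polynomial ℂ}
    (hφ : Curve q p (-f 0) m φ) : ∃ D : VF R, Glob D ∧ HV 𝒜 (-f (Fin.last n)) D ∧ NZ φ D := by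
  classical
  have hN := hA.N0
  have h01 := zero_ne_one' hA
  have h1L := one_ne_last hA
  have h0L := zero_ne_last hA
  have hr := hA.root 0 (Fin.last n) h0L
  have hlam0 : -f (Fin.last n) ≠ 0 := by
    intro h
    have h2 := hc.neg (Fin.last n) (by rw [Fin.val_last]; exact hA.n2)
    rw [neg_eq_zero.1 h, map_zero] at h2
    exact lt_irrefl _ h2
  -- the function
  obtain ⟨d, u, hu, hun⟩ := hφ.un'
  rw [sub_neg_eq_add] at hu
  obtain ⟨g, hg, hgp⟩ := exists_deg_one_ne H.hX.gen p.nv p.fix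
  have hg0 : iK g ≠ 0 := iK_ne_zero (ne_zero_of_q hgp)
  set X : FractionRing R := iK u * (iK g) ^ (-(d : ℤ)) with hXd
  have hXH : HK 𝒜 0 (f 0) X :=
    ((HK.ofR hu).mul (XF.hk_zpow (HK.ofR hg) hg0 (-(d : ℤ)))).cast (by push_cast; ring) (by
      rw [neg_smul, natCast_zsmul]; abel)
  have hXr : Rg p.q X := (Rg.iK u).mul (XF.val_zpow (Val.iK g) hgp _).rg
  set v : VF R := X • E 0 (Fin.last n) with hv
  have hvH : HV 𝒜 (-f (Fin.last n)) v := (HV.smul hXH hr.hvE).cast (by abel)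
  have hvp : RgV p.q v := RgV.smul hXr hr.globE.rgV
  have hglob : Glob v := by
    by_contra hnot
    obtain ⟨y, b, hyb, hcb, hoth, hnr, hk⟩ := hlow hlam0 hvH (fun y0 hy0 =>
      A04.same_rgV H (pos_unique H c hc.ne hp hy0) hvH hvp) hnot
    obtain ⟨dz, z, hz⟩ := XF.exists_coord H y hyb
    obtain ⟨k, hk⟩ := hk dz z hz
    apply hnr
    obtain ⟨y', m', φ', hφ'⟩ := exists_curve H y hyb
    have hy' : Pos c y' := pos_end H hcb hoth hφ'
    have hPi := (same_pi (pos_unique H c hc.ne hp hy') H).2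
    have hb' : y'.Pi b := by
      have h2 := hφ'.ya'
      rwa [neg_neg] at h2
    have key := lemmaM H y (ι := Empty) (w := fun i => i.elim) (χ := fun i => i.elim)
      { glob := fun i => i.elim
        hv := fun i => i.elim
        inj := fun i => i.elim
        pi := fun i => i.elim
        ne := fun i => i.elim } c hz (fun ψ h2 h3 => (hoth ψ h2 h3).le) hcb ?_ hvH k (by
          rw [Set.range_eq_empty, rm_empty]; exact hk)
    · rwa [Set.range_eq_empty, rm_empty] at key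
    · intro l psi M hl hpsi hM he
      have hpsi' : psi = 0 ∨ y.Pi psi := hpsi.imp id fun h2 => h2.1
      obtain ⟨-, ⟨hb, -, -⟩ | ⟨hb, -, -⟩ | ⟨hb, -, h2⟩⟩ := hrel hyb hcb hoth hl hpsi' hM he
      · exact h1 ((hPi _).2 (hb ▸ hb'))
      · exact h1 ((hPi _).2 (hb ▸ hb'))
      · -- the wall `f 0 - f 1`
        subst hb
        have h3 : y.Pi (f 0 - f (Fin.last n)) := by
          rcases hpsi' with h4 | h4
          · exfalso
            have h5 := congrArg (β 0 (Fin.last n)) (h2.symm.trans h4)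
            rw [map_sub, hA.be _ _ _ h0L, hA.be _ _ _ h0L, if_pos rfl, if_neg h0L,
              if_neg (Ne.symm h0L), if_pos rfl, map_zero] at h5
            omega
          · rwa [h2] at h4
        rw [neg_sub] at hyb hφ'
        have hr10 := hA.root 1 0 (Ne.symm h01)
        have h4 : y.Pi (f 1 - f (Fin.last n)) := by
          have h5 := nef_string0 H hN (toRoot0 hr10) hr10.int y (H170.not_pi_neg H hyb) h3 (by
            rw [map_sub, hA.be _ _ _ (Ne.symm h01), hA.be _ _ _ (Ne.symm h01), if_neg h01,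
              if_pos rfl, if_neg (Ne.symm h1L), if_neg (Ne.symm h0L)]
            omega)
          have h6 : f 0 - f (Fin.last n) + (f 1 - f 0) = f 1 - f (Fin.last n) := by abel
          rwa [h6] at h5
        have hval : ∀ i, i = 0 ∨ i = 1 →
            (β 0 (Fin.last n) + β 1 (Fin.last n)) (f i - f (Fin.last n)) = 3 * N := by
          rintro i (rfl | rfl)
          · rw [AddMonoidHom.add_apply, map_sub, map_sub, hA.be _ _ _ h0L, hA.be _ _ _ h0L,
              hA.be _ _ _ h1L, hA.be _ _ _ h1L]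
            simp only [if_neg h01, if_neg h0L, if_neg (Ne.symm h0L), if_neg (Ne.symm h1L), ↓reduceIte]
            ring
          · rw [AddMonoidHom.add_apply, map_sub, map_sub, hA.be _ _ _ h0L, hA.be _ _ _ h0L,
              hA.be _ _ _ h1L, hA.be _ _ _ h1L]
            simp only [if_neg (Ne.symm h01), if_neg h1L, if_neg (Ne.symm h0L),
              if_neg (Ne.symm h1L), ↓reduceIte]
            ring
        have hcount := curve_count H hφ' (β 0 (Fin.last n) + β 1 (Fin.last n)) (by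
          rw [AddMonoidHom.add_apply, map_sub, map_sub, hA.be _ _ _ h0L, hA.be _ _ _ h0L,
            hA.be _ _ _ h1L, hA.be _ _ _ h1L]
          simp only [if_neg (Ne.symm h01), if_neg h1L, if_neg h0L, if_neg h01, ↓reduceIte]
          ring) (3 * N) (by omega)
        have hfne : f 0 - f (Fin.last n) ≠ f 1 - f (Fin.last n) := by
          intro h5
          have h6 := congrArg (β 0 1) (sub_left_injective h5)
          rw [hA.be _ _ _ h01, hA.be _ _ _ h01, if_pos rfl, if_neg h01, if_neg (Ne.symm h01),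
            if_pos rfl] at h6
          omega
        have h5 : ({f 0 - f (Fin.last n), f 1 - f (Fin.last n)} : Set (Fin r → ℤ)) ⊆
            {χ | y.Pi χ ∧ (β 0 (Fin.last n) + β 1 (Fin.last n)) χ = 3 * N} := by
          rintro χ (rfl | h6)
          · exact ⟨h3, hval 0 (Or.inl rfl)⟩
          · rw [Set.mem_singleton_iff] at h6
            subst h6
            exact ⟨h4, hval 1 (Or.inr rfl)⟩
        have h6 : {χ | y'.Pi χ ∧ (β 0 (Fin.last n) + β 1 (Fin.last n)) χ = 3 * N} ⊆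
            ({f 0 - f (Fin.last n)} : Set (Fin r → ℤ)) := by
          rintro χ ⟨h7, h8⟩
          rcases class_top hA ⟨y', h7⟩ h8 with rfl | rfl
          · rfl
          · exact absurd ((hPi _).2 h7) hno
        have h7 := Set.ncard_le_ncard h5 ((H170.pi_finite H y).subset fun χ h => h.1)
        have h8 := Set.ncard_le_ncard h6 (Set.toFinite _)
        rw [Set.ncard_pair hfne] at h7
        rw [Set.ncard_singleton] at h8
        omega
  refine ⟨v, hglob, hvH, ?_⟩
  -- the field is not zero along the curve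
  obtain ⟨x, w, hxw, hw⟩ := ne_of_end hφ hr.globE hr.hvE (Or.inr (hr.atE p h0))
  obtain ⟨e, he⟩ := hglob x
  refine ⟨x, e, he, fun h2 => ?_⟩
  have h3 : iK (u * w) = iK (g ^ d * e) := by
    rw [iK_mul, iK_mul, iK_pow, ← he, hv, Derivation.smul_apply, smul_eq_mul, hxw, hXd, zpow_neg,
      zpow_natCast]
    field_simp
  have h4 : u * w = g ^ d * e := Vale.Agent.P280.N.iK_inj h3
  have h5 := congrArg φ h4
  rw [map_mul, map_mul, h2, mul_zero] at h5
  rcases mul_eq_zero.1 h5 with h6 | h6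
  · rw [h6, Polynomial.coeff_zero] at hun
    exact hun rfl
  · exact hw h6

end

end Vale.Agent.P280.N2.H760
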